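import Vale.Agent.P168.Main

namespace Vale.Agent.Results.P168.MezardParisi

open MeasureTheory ProbabilityTheory Filter Topology Vale.Agent.P168

theorem result (K : ℕ) (Ω : Type*) [MeasurableSpace Ω] (P : Measure Ω) [IsProbabilityMeasure P]
    (θ : Ω → (Fin K → Bool) → ℝ) (μ : Measure ℝ) [IsProbabilityMeasure μ] (lam : ℝ)
    (hK : 1 ≤ K) (hθ : Measurable θ) (hi : Integrable (fun ω => ‖θ ω‖) P)
    (hμ : Integrable id μ) (hl : 0 < lam) :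
    (∀ ε > 0, ∀ᶠ N in atTop, ∃ r m x, Adm r m x ∧
      trial P θ μ lam r m x ≤ pressure P θ μ lam N + ε) ∧
    ∀ (a b : Ω → ℝ) (f : Ω → Fin K → Bool → ℝ), Even K →
      (∀ᵐ ω ∂P, (∀ σ, Real.exp (θ ω σ) = a ω * (1 + b ω * ∏ j, f ω j (σ j))) ∧
        0 < a ω ∧ |b ω| < 1 ∧ ∀ j s, |f ω j s| ≤ 1) →
      Measurable b → Measurable f → iIndepFun (fun j ω => f ω j) P →
      (∀ j j', IdentDistrib (fun ω => f ω j) (fun ω => f ω j') P P) → IndepFun b f P →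
      (∀ n, 1 ≤ n → 0 ≤ ∫ ω, (-b ω) ^ n ∂P) →
      (∀ r m x, Adm r m x → ∀ N, 1 ≤ N → pressure P θ μ lam N ≤ trial P θ μ lam r m x) ∧
        Tendsto (pressure P θ μ lam) atTop (𝓝 (⨅ r, Phi P θ μ lam r)) := by
  refine ⟨fun ε hε => lower hK hθ hi hμ hl hε, fun a b f hE he hbm hfm h1 h2 h3 h4 => ?_⟩
  have hup : ∀ r m x, Adm r m x → ∀ N, 1 ≤ N → pressure P θ μ lam N ≤ trial P θ μ lam r m x :=
    fun r m x hA N hN => upper hE ⟨0, hK⟩ hθ hi hμ hl he hbm hfm h1 h2 h3 h4 hA hN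
  exact ⟨hup, tendsto_of (fun ε hε => lower hK hθ hi hμ hl hε) hup⟩

end Vale.Agent.Results.P168.MezardParisi
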